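import Vale.Agent.P213.Defs

/-!
# P213: shared vocabulary of the modules

Full parts on sets of objects, skeleta, atoms and the order condition on augmented directed
complexes, the cylinder of a complex, and the data of a chain homotopy between simplices.
-/

namespace Vale.Agent.P213

open CategoryTheory

universe u v

noncomputable section

namespace OmCat

variable (X : OmCat.{u})

/-- A set of cells closed under sources, targets and composites. -/
structure Closed (Q : X.carrier → Prop) : Prop where
  s : ∀ k x, Q x → Q (X.s k x)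
  t : ∀ k x, Q x → Q (X.t k x)
  comp : ∀ k x y, Q x → Q y → X.t k x = X.s k y → Q (X.comp k x y)

open Classical in
/-- The omega-category of a closed set of cells. -/
abbrev sub (Q : X.carrier → Prop) (h : X.Closed Q) : OmCat.{u} where
  carrier := {x : X.carrier // Q x}
  s k x := ⟨X.s k x.1, h.s k x.1 x.2⟩
  t k x := ⟨X.t k x.1, h.t k x.1 x.2⟩
  comp k x y := if e : X.t k x.1 = X.s k y.1 then ⟨X.comp k x.1 y.1, h.comp k x.1 y.1 x.2 y.2 e⟩ else x
  ss i j x := Subtype.ext (X.ss i j x.1)
  st i j x := by
    apply Subtype.ext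
    have := X.st i j x.1
    split_ifs with hij <;> simpa [hij] using this
  ts i j x := by
    apply Subtype.ext
    have := X.ts i j x.1
    split_ifs with hij <;> simpa [hij] using this
  tt i j x := Subtype.ext (X.tt i j x.1)
  s_comp i n x y e := by
    replace e : X.t n x.1 = X.s n y.1 := congrArg Subtype.val e
    apply Subtype.ext
    rw [dif_pos e]
    have := X.s_comp i n x.1 y.1 e
    by_cases hi : i ≤ n
    · rw [if_pos hi] at this ⊢
      exact this
    · rw [if_neg hi] at this ⊢
      have e' : X.t n (X.s i x.1) = X.s n (X.s i y.1) := by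
        rw [X.ts, if_pos (by omega), X.ss, min_eq_left (by omega), e]
      rw [dif_pos e']
      exact this
  t_comp i n x y e := by
    replace e : X.t n x.1 = X.s n y.1 := congrArg Subtype.val e
    apply Subtype.ext
    rw [dif_pos e]
    have := X.t_comp i n x.1 y.1 e
    by_cases hi : i ≤ n
    · rw [if_pos hi] at this ⊢
      exact this
    · rw [if_neg hi] at this ⊢
      have e' : X.t n (X.t i x.1) = X.s n (X.t i y.1) := by
        rw [X.tt, min_eq_left (by omega), X.st, if_pos (by omega), e]
      rw [dif_pos e']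
      exact this
  id_comp n x := by
    have e : X.t n (X.s n x.1) = X.s n x.1 := by rw [X.ts, if_neg (lt_irrefl n)]
    apply Subtype.ext
    rw [dif_pos e]
    exact X.id_comp n x.1
  comp_id n x := by
    have e : X.t n x.1 = X.s n (X.t n x.1) := by rw [X.st, if_neg (lt_irrefl n)]
    apply Subtype.ext
    rw [dif_pos e]
    exact X.comp_id n x.1
  assoc n x y z e1 e2 := by
    replace e1 : X.t n x.1 = X.s n y.1 := congrArg Subtype.val e1
    replace e2 : X.t n y.1 = X.s n z.1 := congrArg Subtype.val e2
    have h1 : X.t n (X.comp n x.1 y.1) = X.s n z.1 := by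
      rw [X.t_comp n n _ _ e1, if_pos le_rfl, e2]
    have h2 : X.t n x.1 = X.s n (X.comp n y.1 z.1) := by
      rw [X.s_comp n n _ _ e2, if_pos le_rfl, e1]
    apply Subtype.ext
    simp only [dif_pos e1, dif_pos e2, dif_pos h1, dif_pos h2]
    exact X.assoc n _ _ _ e1 e2
  interchange m n x x' y y' hmn e1 e2 e3 := by
    replace e1 : X.t n x.1 = X.s n x'.1 := congrArg Subtype.val e1
    replace e2 : X.t n y.1 = X.s n y'.1 := congrArg Subtype.val e2
    replace e3 : X.t m x.1 = X.s m y.1 := congrArg Subtype.val e3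
    have e4 : X.t m x'.1 = X.s m y'.1 := by
      have h1 := congrArg (X.t m) e1
      rw [X.tt, min_eq_left hmn.le, X.ts, if_pos hmn] at h1
      have h2 := congrArg (X.s m) e2
      rw [X.st, if_pos hmn, X.ss, min_eq_left hmn.le] at h2
      rw [← h1, e3, h2]
    have h1 : X.t m (X.comp n x.1 x'.1) = X.s m (X.comp n y.1 y'.1) := by
      rw [X.t_comp m n _ _ e1, if_pos hmn.le, X.s_comp m n _ _ e2, if_pos hmn.le, ← e3]
      have h1 := congrArg (X.t m) e1
      rwa [X.tt, min_eq_left hmn.le, X.ts, if_pos hmn, eq_comm] at h1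
    have h2 : X.t n (X.comp m x.1 y.1) = X.s n (X.comp m x'.1 y'.1) := by
      rw [X.t_comp n m _ _ e3, if_neg (by omega), X.s_comp n m _ _ e4, if_neg (by omega), e1, e2]
    apply Subtype.ext
    simp only [dif_pos e1, dif_pos e2, dif_pos e3, dif_pos e4, dif_pos h1, dif_pos h2]
    exact X.interchange m n _ _ _ _ hmn e1 e2 e3
  bounded x := (X.bounded x.1).imp fun k hk => Subtype.ext hk

open Classical in
/-- The inclusion of a closed set of cells. -/
def subι (Q : X.carrier → Prop) (h : X.Closed Q) : Fun (X.sub Q h) X where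
  toFun x := x.1
  map_s _ _ := rfl
  map_t _ _ := rfl
  map_comp n x y e := by
    change Subtype.val (dite _ _ _) = _
    rw [dif_pos (show X.t n x.1 = X.s n y.1 from congrArg Subtype.val e)]

open Classical in
/-- A functor into a closed set of cells. -/
def toSub {Y : OmCat.{v}} (F : Fun Y X) (Q : X.carrier → Prop) (h : X.Closed Q)
    (hF : ∀ y, Q (F.toFun y)) : Fun Y (X.sub Q h) where
  toFun y := ⟨F.toFun y, hF y⟩
  map_s n y := Subtype.ext (F.map_s n y)
  map_t n y := Subtype.ext (F.map_t n y)
  map_comp n x y e := by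
    apply Subtype.ext
    change _ = Subtype.val (dite _ _ _)
    rw [dif_pos (show X.t n (F.toFun x) = X.s n (F.toFun y) by rw [← F.map_t, ← F.map_s, e])]
    exact F.map_comp n x y e

/-- The cells of dimension at most `k`. -/
theorem skel_closed (k : ℕ) : X.Closed fun x => X.s k x = x := by
  refine ⟨fun i x hx => ?_, fun i x hx => ?_, fun i x y hx hy e => ?_⟩
  · conv_rhs => rw [← hx, X.ss]
    rw [X.ss, min_comm]
  · rw [X.st]
    split_ifs with h
    · have : X.t i x = x := by rw [← hx, X.ts, if_neg (by omega)]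
      rw [this, hx]
    · rfl
  · rw [X.s_comp k i x y e]
    split_ifs with h
    · have h1 : X.t i x = x := by rw [← hx, X.ts, if_neg (by omega)]
      have h2 : X.s i y = y := by rw [← hy, X.ss, min_eq_right h]
      have h3 : y = x := by rw [← h2, ← e, h1]
      subst h3
      rw [hx]
      conv_lhs => rw [← X.comp_id i y, h1]
    · rw [hx, hy]

/-- The `k`-skeleton. -/
abbrev skel (k : ℕ) : OmCat.{u} := X.sub _ (X.skel_closed k)

/-- Cells whose two endpoints satisfy `P`. -/
theorem full_closed (P : X.carrier → Prop) :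
    X.Closed fun x => P (X.s 0 x) ∧ P (X.t 0 x) := by
  refine ⟨fun k x hx => ?_, fun k x hx => ?_, fun k x y hx hy e => ?_⟩
  · rw [X.ss, min_eq_left (Nat.zero_le k), X.ts]
    refine ⟨hx.1, ?_⟩
    split_ifs with h
    · exact hx.2
    · rw [show k = 0 by omega]; exact hx.1
  · rw [X.tt, min_eq_left (Nat.zero_le k), X.st]
    refine ⟨?_, hx.2⟩
    split_ifs with h
    · exact hx.1
    · rw [show k = 0 by omega]; exact hx.2
  · rw [X.s_comp 0 k x y e, X.t_comp 0 k x y e, if_pos (Nat.zero_le k), if_pos (Nat.zero_le k)]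
    exact ⟨hx.1, hy.2⟩

/-- The full part on the objects satisfying `P`. -/
abbrev full (P : X.carrier → Prop) : OmCat.{u} := X.sub _ (X.full_closed P)

/-- The inclusion of a full part. -/
abbrev fullι (P : X.carrier → Prop) : Fun (X.full P) X := X.subι _ (X.full_closed P)

/-- A monotone labelling of the objects (its values on other cells play no role). -/
def IsLabel {L : Type v} [PartialOrder L] (lab : X.carrier → L) : Prop :=
  ∀ x, lab (X.s 0 x) ≤ lab (X.t 0 x)

variable {X}

/-- A functor between full parts. -/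
def fullMap {Y : OmCat.{v}} (F : Fun X Y) {P : X.carrier → Prop} {Q : Y.carrier → Prop}
    (h : ∀ o, X.s 0 o = o → P o → Q (F.toFun o)) : Fun (X.full P) (Y.full Q) :=
  Y.toSub ((X.fullι P).comp F) _ _ fun x => by
    refine ⟨?_, ?_⟩
    · have e : Y.s 0 (((X.fullι P).comp F).toFun x) = F.toFun (X.s 0 x.1) :=
        (F.map_s 0 x.1).symm
      rw [e]
      exact h _ (by rw [X.ss]; rfl) x.2.1
    · have e : Y.t 0 (((X.fullι P).comp F).toFun x) = F.toFun (X.t 0 x.1) :=
        (F.map_t 0 x.1).symm
      rw [e]
      exact h _ (by rw [X.st, if_neg (lt_irrefl 0)]) x.2.2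

end OmCat

theorem isNCat_sub {n : ℕ∞} {X : OmCat.{u}} (h : IsNCat n X) (Q : X.carrier → Prop)
    (hQ : X.Closed Q) : IsNCat n (X.sub Q hQ) :=
  fun k hk x => Subtype.ext (h k hk x.1)

/-- The full part of an `n`-category. -/
abbrev fullN {n : ℕ∞} (X : NCat.{u} n) (P : X.obj.carrier → Prop) : NCat.{u} n :=
  ⟨X.obj.full P, isNCat_sub X.property _ _⟩

/-! ### Atoms, the order condition, cylinders of complexes -/

namespace ADC

variable (K : ADC)

/-- The source (`false`) or target (`true`) part of a chain. -/
def part (e : Bool) (c : K.B →₀ ℤ) : K.B →₀ ℕ :=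
  if e then c.mapRange Int.toNat rfl else (-c).mapRange Int.toNat rfl

/-- The atom of `b`, counted downwards from its degree. -/
def atomDown (b : K.B) (e : Bool) : ℕ → (K.B →₀ ℕ)
  | 0 => Finsupp.single b 1
  | j + 1 => K.part e (K.bd (atomDown b e j))

/-- The chains of the atom of `b`. -/
def atomX (b : K.B) (k : ℕ) (e : Bool) : K.B →₀ ℕ :=
  if k ≤ K.deg b then K.atomDown b e (K.deg b - k) else 0

/-- The cell `p` is the atom of `b`. -/
def IsAtom (b : K.B) (p : K.Cell) : Prop := ∀ k e, p.x k e = K.atomX b k e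

/-- A unital basis with one linear order for which sources precede and targets follow. -/
structure Good (K : ADC) : Prop where
  deg_d : ∀ b c, K.d b c ≠ 0 → K.deg c + 1 = K.deg b
  dd : ∀ b, ((K.d b).sum fun c r => r • K.d c) = 0
  unital : ∀ b e, ((K.atomX b 0 e).sum fun _ r => r) = 1
  order : ∃ r : K.B → K.B → Prop, IsStrictTotalOrder K.B r ∧
    ∀ b c, (K.d b c < 0 → r c b) ∧ (0 < K.d b c → r b c)

/-- The tensor product with the interval; `none` is its edge. -/
abbrev tens (K : ADC) : ADC where
  B := K.B × Option Bool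
  deg p := K.deg p.1 + if p.2 = none then 1 else 0
  d p := (K.d p.1).mapDomain (fun c => (c, p.2)) +
    if p.2 = none then (-1 : ℤ) ^ K.deg p.1 •
      (Finsupp.single (p.1, some true) (1 : ℤ) - Finsupp.single (p.1, some false) 1) else 0

end ADC

/-- The additive extension of a map from a basis to positive chains. -/
def extN {A B : Type} (h : A → (B →₀ ℕ)) (c : A →₀ ℕ) : B →₀ ℕ := c.sum fun a r => r • h a

/-- The additive extension to integral chains. -/
def extZ {A B : Type} (h : A → (B →₀ ℕ)) (c : A →₀ ℤ) : B →₀ ℤ :=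
  c.sum fun a r => r • (h a).mapRange (fun j : ℕ => (j : ℤ)) rfl

/-- A positive chain homotopy from `f` to `g` between simplices. -/
structure CylData (a b : ℕ) where
  f : Fin (a + 1) →o Fin (b + 1)
  g : Fin (a + 1) →o Fin (b + 1)
  h : (simplexADC a).B → ((simplexADC b).B →₀ ℕ)
  deg_h : ∀ c s, h c s ≠ 0 → (simplexADC b).deg s = (simplexADC a).deg c + 1
  eq : ∀ c, (simplexADC b).bd (h c) - extZ h ((simplexADC a).d c) =
    (-1 : ℤ) ^ (simplexADC a).deg c •
      ((simplexADC b).toZ (imageBasis g c) - (simplexADC b).toZ (imageBasis f c))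

/-- The vertex `i` of an oriental. -/
def vert {a : ℕ} (i : Fin (a + 1)) : (simplexADC a).Cell where
  x k _ := if k = 0 then Finsupp.single ⟨{i}, Finset.singleton_nonempty i⟩ 1 else 0
  deg_eq k _ b hb := by
    split_ifs at hb with h
    · obtain ⟨rfl, -⟩ := Finsupp.single_apply_ne_zero.1 hb
      simp [h]
    · simp at hb
  aug _ := by simp
  boundary k _ := by simp [ADC.bd_zero]
  bounded := ⟨0, fun k _ hk => by simp [show k ≠ 0 by omega]⟩

end

end Vale.Agent.P213
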