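import Vale.Agent.P213.Base

/-!
# P213: interfaces between the modules

Each proposition below is proved in the file named next to it. Nothing here is assumed by the
final theorem.
-/

namespace Vale.Agent.P213

open CategoryTheory CategoryTheory.Limits HomotopicalAlgebra MorphismProperty Simplicial PartialOrder

universe u v

noncomputable section

namespace Spec

/-- Weak homotopy equivalences as a class. -/
def weq : MorphismProperty SSet.{u} := fun _ _ f => IsWeakHomotopyEquiv f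

/-- Homotopic maps of simplicial sets. -/
def Htpic {X Y : SSet.{u}} (f g : X ⟶ Y) : Prop :=
  Relation.EqvGen (fun p q : X ⟶ Y => Nonempty (SSet.Homotopy p q)) f g

/-! ### A. `Omega/*.lean` -/

/-- Limits and colimits of `n`-categories. -/
def Bicomplete (n : ℕ∞) : Prop := HasLimits (NCat.{u} n) ∧ HasColimits (NCat.{u} n)

/-- The nerve has a left adjoint. -/
def NerveAdjoint (n : ℕ∞) : Prop := (nerveN.{u} n).IsRightAdjoint

/-- The nerve preserves filtered colimits. -/
def NerveFiltered (n : ℕ∞) : Prop :=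
  ∀ (J : Type u) [SmallCategory J] [IsFiltered J], PreservesColimitsOfShape J (nerveN.{u} n)

/-- Restriction to an order-connected set of labels has a right adjoint. -/
def Restrict : Prop :=
  ∀ (L : Type u) [PartialOrder L] (D : Set L), D.OrdConnected → ∀ Z : OmCat.{u},
    ∃ (R : OmCat.{u}) (labR : R.carrier → L) (e : Fun (R.full fun o => labR o ∈ D) Z),
      R.IsLabel labR ∧ (∀ n : ℕ∞, 1 ≤ n → IsNCat n Z → IsNCat n R) ∧
      ∀ (Y : OmCat.{v}) (lab : Y.carrier → L), Y.IsLabel lab →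
        ∀ φ : Fun (Y.full fun o => lab o ∈ D) Z, ∃! Φ : Fun Y R,
          ∃ h : ∀ o, Y.s 0 o = o → labR (Φ.toFun o) = lab o,
            (OmCat.fullMap Φ fun o ho (hP : lab o ∈ D) =>
              show labR (Φ.toFun o) ∈ D by rw [h o ho]; exact hP).comp e = φ

/-! ### B. `Steiner/*.lean` -/

/-- The simplex satisfies the order condition. -/
def SimplexGood : Prop := ∀ m, (simplexADC m).Good

/-- So does the cylinder of a good complex. -/
def TensGood : Prop := ∀ K : ADC, K.Good → K.tens.Good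

/-- Atoms are cells. -/
def AtomCell : Prop := ∀ K : ADC, K.Good → ∀ b, ∃ p : K.Cell, K.IsAtom b p

/-- Functors on the zero skeleton are arbitrary assignments of objects. -/
def FreeZero : Prop :=
  ∀ K : ADC, K.Good → ∀ (X : OmCat.{u}) (v : {b // K.deg b = 0} → X.carrier),
    (∀ b, X.s 0 (v b) = v b) →
    ∃! F : Fun (K.nu.skel 0) X, ∀ b q, K.IsAtom b.1 q.1 → F.toFun q = v b

/-- Functors extend uniquely from one skeleton to the next by values on the atoms. -/
def FreeSucc : Prop :=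
  ∀ K : ADC, K.Good → ∀ (X : OmCat.{u}) (k : ℕ) (F : Fun (K.nu.skel k) X)
    (v : {b // K.deg b = k + 1} → X.carrier),
    (∀ b, X.s (k + 1) (v b) = v b ∧ ∀ (p : K.Cell) (q : (K.nu.skel k).carrier), K.IsAtom b.1 p →
      (q.1 = ADC.Cell.face false k p → X.s k (v b) = F.toFun q) ∧
      (q.1 = ADC.Cell.face true k p → X.t k (v b) = F.toFun q)) →
    ∃! F' : Fun (K.nu.skel (k + 1)) X,
      (∀ q q', q'.1 = q.1 → F'.toFun q' = F.toFun q) ∧
      ∀ b q, K.IsAtom b.1 q.1 → F'.toFun q = v b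

/-- Functors agreeing on all atoms are equal. -/
def FreeExt : Prop :=
  ∀ K : ADC, K.Good → ∀ (X : OmCat.{u}) (F G : Fun K.nu X),
    (∀ b p, K.IsAtom b p → F.toFun p = G.toFun p) → F = G

/-- A compatible family on the skeleta is one functor. -/
def FreeGlue : Prop :=
  ∀ (K : ADC) (X : OmCat.{u}) (F : ∀ k, Fun (K.nu.skel k) X),
    (∀ k q q', q'.1 = q.1 → (F (k + 1)).toFun q' = (F k).toFun q) →
    ∃! G : Fun K.nu X, ∀ k q, G.toFun q.1 = (F k).toFun q

/-- A cell of an oriental has vertices as endpoints and only uses vertices between them. -/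
def Interval : Prop :=
  ∀ (a : ℕ) (p : (simplexADC a).Cell), ∃ i j : Fin (a + 1),
    p.x 0 false = Finsupp.single ⟨{i}, Finset.singleton_nonempty i⟩ 1 ∧
    p.x 0 true = Finsupp.single ⟨{j}, Finset.singleton_nonempty j⟩ 1 ∧ i ≤ j ∧
    ∀ k e s, p.x k e s ≠ 0 → ∀ x ∈ s.1, i ≤ x ∧ x ≤ j

/-! ### C. `Cylinder/*.lean` -/

/-- Cylinders of cells, with homotopic ends, receive the chain homotopies between simplices. -/
def Cylinder (n : ℕ∞) : Prop :=
  ∃ (Γ : NCat.{u} n ⥤ NCat.{u} n) (e₀ e₁ : Γ ⟶ 𝟭 _) (cst : 𝟭 _ ⟶ Γ),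
    cst ≫ e₀ = 𝟙 _ ∧ cst ≫ e₁ = 𝟙 _ ∧
    (∀ X, Htpic ((nerveN n).map (e₀.app X)) ((nerveN n).map (e₁.app X))) ∧
    ∃ hmap : ∀ (X : NCat.{u} n) {a b : ℕ}, CylData a b → Fun (oriental b) X.obj →
        Fun (oriental a) (Γ.obj X).obj,
      (∀ X a b (D : CylData a b) σ,
        (hmap X D σ).comp (e₀.app X).hom = (orientalMap D.f).comp σ ∧
        (hmap X D σ).comp (e₁.app X).hom = (orientalMap D.g).comp σ) ∧
      (∀ X Y (F : X ⟶ Y) a b (D : CylData a b) σ,
        (hmap X D σ).comp (Γ.map F).hom = hmap Y D (σ.comp F.hom)) ∧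
      (∀ X a b a' b' (D : CylData a b) (D' : CylData a' b') (θ : Fin (a' + 1) →o Fin (a + 1))
        (φ : Fin (b' + 1) →o Fin (b + 1)),
        D.f.comp θ = φ.comp D'.f → D.g.comp θ = φ.comp D'.g →
        (∀ c, extN D.h (imageBasis θ c) = imageChain φ (D'.h c)) →
        ∀ σ, (orientalMap θ).comp (hmap X D σ) = hmap X D' ((orientalMap φ).comp σ)) ∧
      ∀ X a b (D : CylData a b) σ, D.f = D.g → (∀ c, D.h c = 0) →
        hmap X D σ = ((orientalMap D.f).comp σ).comp (cst.app X).hom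

/-! ### D1. `SSet/WeakEquiv.lean`, `SSet/Gluing.lean` -/

/-- Two out of three and retracts. -/
def WeqBasic : Prop :=
  weq.{u}.HasTwoOutOfThreeProperty ∧ weq.{u}.IsStableUnderRetracts

/-- Homotopy equivalences are weak homotopy equivalences. -/
def WeqHomotopyEquiv : Prop :=
  ∀ (X Y : SSet.{u}) (f : X ⟶ Y) (g : Y ⟶ X),
    Htpic (f ≫ g) (𝟙 X) → Htpic (g ≫ f) (𝟙 Y) → weq f

/-- Comparable monotone maps have homotopic nerves. -/
def NerveHomotopy : Prop :=
  ∀ (P Q : Type u) [PartialOrder P] [PartialOrder Q] (f g : P → Q) (hf : Monotone f)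
    (hg : Monotone g), (∀ p, f p ≤ g p) → Htpic (nerveMap hf.functor) (nerveMap hg.functor)

/-- Pushouts of monic weak equivalences are weak equivalences. -/
def WeqPushout : Prop :=
  ∀ {Z A B Y : SSet.{u}} {f : Z ⟶ A} {g : Z ⟶ B} {i : A ⟶ Y} {j : B ⟶ Y},
    IsPushout f g i j → Mono f → weq f → weq j

/-- Gluing lemma. -/
def WeqGluing : Prop :=
  ∀ {Z A B Y Z' A' B' Y' : SSet.{u}} {f : Z ⟶ A} {g : Z ⟶ B} {i : A ⟶ Y} {j : B ⟶ Y}
    {f' : Z' ⟶ A'} {g' : Z' ⟶ B'} {i' : A' ⟶ Y'} {j' : B' ⟶ Y'}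
    (z : Z ⟶ Z') (a : A ⟶ A') (b : B ⟶ B') (y : Y ⟶ Y'),
    IsPushout f g i j → IsPushout f' g' i' j' → Mono f → Mono f' →
    f ≫ a = z ≫ f' → g ≫ b = z ≫ g' → i ≫ y = a ≫ i' → j ≫ y = b ≫ j' →
    weq z → weq a → weq b → weq y

/-- Weak equivalences between well-ordered chains of monos pass to the colimit. -/
def WeqChain : Prop :=
  ∀ (J : Type u) [LinearOrder J] [SuccOrder J] [OrderBot J] [WellFoundedLT J]
    (F G : J ⥤ SSet.{u}) [F.IsWellOrderContinuous] [G.IsWellOrderContinuous],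
    (∀ i j (f : i ⟶ j), Mono (F.map f) ∧ Mono (G.map f)) →
    ∀ τ : F ⟶ G, (∀ j, weq (τ.app j)) → ∀ (c : Cocone F) (c' : Cocone G),
      IsColimit c → IsColimit c' → ∀ l : c.pt ⟶ c'.pt,
        (∀ j, c.ι.app j ≫ l = τ.app j ≫ c'.ι.app j) → weq l

/-- Monic weak equivalences are closed under transfinite composition. -/
def WeqTransfinite : Prop :=
  IsStableUnderTransfiniteComposition.{u} (monomorphisms SSet.{u} ⊓ weq.{u})

/-! ### D2. `SSet/Ex.lean`, `SSet/TrivialFibration.lean`, `SSet/SdNerve.lean` -/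

/-- `Ex` preserves and reflects weak equivalences. -/
def ExWeq : Prop := ∀ (X Y : SSet.{u}) (f : X ⟶ Y), weq (SSet.ex.map f) ↔ weq f

/-- The unit of subdivision and extension is a weak equivalence. -/
def SdExUnit : Prop := ∀ K : SSet.{u}, weq (SSet.sdExAdjunction.unit.app K)

/-- Trivial fibrations are the fibrations that are weak equivalences. -/
def TrivialFibration : Prop :=
  ∀ (X Y : SSet.{u}) (f : X ⟶ Y), SSet.modelCategoryQuillen.I.rlp f ↔
    SSet.modelCategoryQuillen.J.rlp f ∧ weq f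

/-- `Ex` preserves filtered colimits. -/
def ExFiltered : Prop :=
  ∀ (J : Type u) [SmallCategory J] [IsFiltered J], PreservesColimitsOfShape J SSet.ex.{u}

/-- Faces of the simplex. -/
abbrev Face (m : ℕ) : Type u := NonemptyFiniteChains (ULift.{u} (Fin (m + 1)))

/-- Chains of faces. -/
abbrev Flag (m : ℕ) : Type u := NonemptyFiniteChains (Face.{u} m)

/-- Chains of faces that all satisfy `H`. -/
abbrev FlagIn (m : ℕ) (H : Face.{u} m → Prop) : Type u :=
  {c : Flag.{u} m // ∀ s ∈ c.finset, H s}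

/-- The nerve of the inclusion of the chains in `H`. -/
def flagIncl (m : ℕ) (H : Face.{u} m → Prop) : nerve (FlagIn m H) ⟶ nerve (Flag.{u} m) :=
  nerveMap (Monotone.functor (f := fun c : FlagIn m H => c.1) fun _ _ h => h)

/-- Twice subdivided boundary inclusions. -/
def SdBoundary : Prop :=
  ∀ m : ℕ, Nonempty (CategoryTheory.Arrow.mk (SSet.sd.map (SSet.sd.map (SSet.boundary.{u} m).ι)) ≅
    CategoryTheory.Arrow.mk (flagIncl.{u} m fun s => ∃ j, j ∉ s.finset))

/-- Twice subdivided horn inclusions. -/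
def SdHorn : Prop :=
  ∀ (m : ℕ) (i : Fin (m + 2)),
    Nonempty (CategoryTheory.Arrow.mk (SSet.sd.map (SSet.sd.map (SSet.horn.{u} (m + 1) i).ι)) ≅
      CategoryTheory.Arrow.mk (flagIncl.{u} (m + 1) fun s => ∃ j, j ≠ ULift.up i ∧ j ∉ s.finset)) ∧
    weq (terminal.from (SSet.sd.obj (SSet.sd.obj (SSet.horn.{u} (m + 1) i).toSSet)))

/-! ### E. `Cells/*.lean` (consumed by F) -/

/-- What the two generating families do on nerves: units at their ends, monic pushouts, homotopy
pushouts for boundaries and weak equivalences for horns. -/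
def Cells (n : ℕ∞) : Prop :=
  ∀ (c : SSet.{u} ⥤ NCat.{u} n) (adj : c ⊣ nerveN n),
    (∀ m : ℕ, let ι := SSet.sd.map (SSet.sd.map (SSet.boundary.{u} m).ι)
      Mono ι ∧ weq (adj.unit.app (SSet.sd.obj (SSet.sd.obj (SSet.boundary.{u} m).toSSet))) ∧
      weq (adj.unit.app (SSet.sd.obj (SSet.sd.obj (Δ[m] : SSet.{u})))) ∧
      Mono ((nerveN n).map (c.map ι)) ∧
      ∀ (X Y : NCat.{u} n) (g : _ ⟶ X) (j : _ ⟶ Y) (i : X ⟶ Y), IsPushout (c.map ι) g j i →
        Mono ((nerveN n).map i) ∧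
        ∀ (P : SSet.{u}) (l : _ ⟶ P) (r : _ ⟶ P) (q : P ⟶ (nerveN n).obj Y),
          IsPushout ((nerveN n).map (c.map ι)) ((nerveN n).map g) l r →
          l ≫ q = (nerveN n).map j → r ≫ q = (nerveN n).map i → weq q) ∧
    ∀ (m : ℕ) (k : Fin (m + 2)) (X Y : NCat.{u} n) (g : _ ⟶ X) (j : _ ⟶ Y) (i : X ⟶ Y),
      IsPushout (c.map (SSet.sd.map (SSet.sd.map (SSet.horn.{u} (m + 1) k).ι))) g j i →
      Mono ((nerveN n).map i) ∧ weq ((nerveN n).map i)

/-! ### F. `CoprodCells.lean` -/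

/-- A pushout of a coproduct is a transfinite composition of pushouts. -/
def CoprodCells : Prop :=
  ∀ (C : Type (u + 1)) [Category.{u} C] [HasColimitsOfSize.{u, u} C] (T : MorphismProperty C),
    (coproducts.{u} T).pushouts ≤ transfiniteCompositions.{u} T.pushouts

end Spec

end

end Vale.Agent.P213
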