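import Mathlib

/-!
# P213: strict omega-categories, orientals, the Street nerve, the question

A strict omega-category is given in single-set form: every cell is its own identity in higher
dimensions, and every cell has finite dimension. Orientals are defined through the augmented
directed complex of the simplex, whose cells are double sequences of positive chains.
-/

namespace Vale.Agent.P213

open CategoryTheory HomotopicalAlgebra Opposite

universe u v w

noncomputable section

/-! ### Omega-categories -/

/-- A strict omega-category in single-set form. The composite `comp n x y` (first `x`, then `y`,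
along dimension `n`) only matters when `t n x = s n y`. -/
structure OmCat : Type (u + 1) where
  carrier : Type u
  s : ℕ → carrier → carrier
  t : ℕ → carrier → carrier
  comp : ℕ → carrier → carrier → carrier
  ss : ∀ i j x, s i (s j x) = s (min i j) x
  st : ∀ i j x, s i (t j x) = if i < j then s i x else t j x
  ts : ∀ i j x, t i (s j x) = if i < j then t i x else s j x
  tt : ∀ i j x, t i (t j x) = t (min i j) x
  s_comp : ∀ i n x y, t n x = s n y →
    s i (comp n x y) = if i ≤ n then s i x else comp n (s i x) (s i y)
  t_comp : ∀ i n x y, t n x = s n y →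
    t i (comp n x y) = if i ≤ n then t i y else comp n (t i x) (t i y)
  id_comp : ∀ n x, comp n (s n x) x = x
  comp_id : ∀ n x, comp n x (t n x) = x
  assoc : ∀ n x y z, t n x = s n y → t n y = s n z →
    comp n (comp n x y) z = comp n x (comp n y z)
  interchange : ∀ m n x x' y y', m < n → t n x = s n x' → t n y = s n y' → t m x = s m y →
    comp m (comp n x x') (comp n y y') = comp n (comp m x y) (comp m x' y')
  bounded : ∀ x, ∃ n, s n x = x

/-- A strict functor. -/
structure Fun (C : OmCat.{u}) (D : OmCat.{v}) : Type (max u v) where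
  toFun : C.carrier → D.carrier
  map_s : ∀ n x, toFun (C.s n x) = D.s n (toFun x)
  map_t : ∀ n x, toFun (C.t n x) = D.t n (toFun x)
  map_comp : ∀ n x y, C.t n x = C.s n y → toFun (C.comp n x y) = D.comp n (toFun x) (toFun y)

namespace Fun

variable {C : OmCat.{u}} {D : OmCat.{v}} {E : OmCat.{w}}

@[ext] theorem ext {F G : Fun C D} (h : ∀ x, F.toFun x = G.toFun x) : F = G := by
  cases F; cases G; simp only [mk.injEq]; exact funext h

/-- The identity functor. -/
def id (C : OmCat.{u}) : Fun C C :=
  ⟨fun x => x, fun _ _ => rfl, fun _ _ => rfl, fun _ _ _ _ => rfl⟩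

/-- Composition of functors. -/
def comp (F : Fun C D) (G : Fun D E) : Fun C E where
  toFun x := G.toFun (F.toFun x)
  map_s n x := by rw [F.map_s, G.map_s]
  map_t n x := by rw [F.map_t, G.map_t]
  map_comp n x y h := by
    rw [F.map_comp n x y h, G.map_comp n _ _ (by rw [← F.map_t, ← F.map_s, h])]

end Fun

instance : Category OmCat.{u} where
  Hom := Fun
  id := Fun.id
  comp := Fun.comp

/-- No cells above dimension `n`. -/
def IsNCat (n : ℕ∞) : ObjectProperty OmCat.{u} := fun X =>
  ∀ k : ℕ, n ≤ (k : ℕ∞) → ∀ x, X.s k x = x

/-- The category of small strict `n`-categories. -/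
abbrev NCat (n : ℕ∞) := (IsNCat.{u} n).FullSubcategory

/-! ### Augmented directed complexes and their omega-categories -/

/-- A graded basis with a boundary. The augmentation takes the value one on the basis in degree
zero. -/
structure ADC where
  B : Type
  deg : B → ℕ
  d : B → (B →₀ ℤ)

namespace ADC

variable (K : ADC)

/-- The boundary of a positive chain. -/
def bd (c : K.B →₀ ℕ) : K.B →₀ ℤ := c.sum fun b a => a • K.d b

theorem bd_add (c c' : K.B →₀ ℕ) : K.bd (c + c') = K.bd c + K.bd c' :=
  Finsupp.sum_add_index' (fun _ => zero_smul ℕ _) fun _ _ _ => add_smul _ _ _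

theorem bd_zero : K.bd 0 = 0 := Finsupp.sum_zero_index

/-- A positive chain as an integral one. -/
def toZ (c : K.B →₀ ℕ) : K.B →₀ ℤ := c.mapRange (fun a : ℕ => (a : ℤ)) rfl

theorem bd_single (b : K.B) (r : ℕ) : K.bd (Finsupp.single b r) = r • K.d b :=
  Finsupp.sum_single_index (zero_smul ℕ _)

theorem toZ_add (c c' : K.B →₀ ℕ) : K.toZ (c + c') = K.toZ c + K.toZ c' := by
  ext b
  simp [toZ]

/-- A cell: in each degree a source chain (`false`) and a target chain (`true`). -/
structure Cell where
  x : ℕ → Bool → (K.B →₀ ℕ)
  deg_eq : ∀ k a b, x k a b ≠ 0 → K.deg b = k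
  aug : ∀ a, (x 0 a).sum (fun _ r => r) = 1
  boundary : ∀ k a, K.bd (x (k + 1) a) = K.toZ (x k true) - K.toZ (x k false)
  bounded : ∃ N, ∀ k a, N < k → x k a = 0

namespace Cell

variable {K}

@[ext] theorem ext {p q : K.Cell} (h : ∀ k a, p.x k a = q.x k a) : p = q := by
  cases p; cases q; simp only [mk.injEq]; funext k a; exact h k a

/-- The source (`false`) or target (`true`) in dimension `n`. -/
def face (e : Bool) (n : ℕ) (p : K.Cell) : K.Cell where
  x k a := if k < n then p.x k a else if k = n then p.x k e else 0
  deg_eq k a b h := by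
    split_ifs at h with h1 h2
    · exact p.deg_eq k a b h
    · exact p.deg_eq k e b h
    · simp at h
  aug a := by
    rcases Nat.eq_zero_or_pos n with rfl | h
    · simpa using p.aug e
    · simpa [h] using p.aug a
  boundary k a := by
    rcases lt_trichotomy (k + 1) n with h | h | h
    · simp [h, show k < n by omega, p.boundary]
    · simp [h, show k < n by omega, ← p.boundary k e]
    · rw [if_neg (by omega), if_neg (by omega), K.bd_zero]
      rcases Nat.lt_or_eq_of_le (show n ≤ k by omega) with h' | rfl
      · simp [show ¬k < n by omega, show k ≠ n by omega]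
      · simp
  bounded := ⟨n, fun k a h => by simp [show ¬k < n by omega, show k ≠ n by omega]⟩

/-- The composite along dimension `n`, as chains. -/
def compX (n : ℕ) (p q : K.Cell) (k : ℕ) (a : Bool) : K.B →₀ ℕ :=
  if k < n then p.x k a else if k = n then (if a then q.x k a else p.x k a) else p.x k a + q.x k a

open Classical in
/-- The composite along dimension `n`; the first cell if they are not composable. -/
def comp (n : ℕ) (p q : K.Cell) : K.Cell :=
  if h : face true n p = face false n q then
    { x := compX n p q
      deg_eq := fun k a b hk => by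
        unfold compX at hk
        split_ifs at hk with h1 h2 h3
        · exact p.deg_eq k a b hk
        · exact q.deg_eq k a b hk
        · exact p.deg_eq k a b hk
        · simp only [Finsupp.add_apply, ne_eq, Nat.add_eq_zero_iff, not_and_or] at hk
          exact hk.elim (p.deg_eq k a b) (q.deg_eq k a b)
      aug := fun a => by
        unfold compX
        rcases Nat.eq_zero_or_pos n with rfl | hn
        · cases a <;> simp [p.aug, q.aug]
        · simp [hn, p.aug]
      boundary := fun k a => by
        have hx : ∀ j b, (face true n p).x j b = (face false n q).x j b := fun j b => by rw [h]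
        simp only [face] at hx
        have hn : p.x n true = q.x n false := by simpa using hx n true
        have hlt : ∀ j b, j < n → p.x j b = q.x j b := fun j b hj => by simpa [hj] using hx j b
        unfold compX
        rcases lt_trichotomy (k + 1) n with hk | hk | hk
        · simp [hk, show k < n by omega, p.boundary]
        · subst hk
          cases a
          · simp [p.boundary]
          · simp [q.boundary, hlt k true (by omega), hlt k false (by omega)]
        · rw [if_neg (by omega), if_neg (by omega), K.bd_add, p.boundary, q.boundary]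
          rcases Nat.lt_or_eq_of_le (show n ≤ k by omega) with h' | rfl
          · rw [if_neg (by omega), if_neg (by omega), if_neg (by omega), if_neg (by omega)]
            simp only [toZ]
            rw [Finsupp.mapRange_add (fun _ _ => Nat.cast_add _ _),
              Finsupp.mapRange_add (fun _ _ => Nat.cast_add _ _)]
            abel
          · simp [hn]
      bounded := by
        obtain ⟨N, hN⟩ := p.bounded
        obtain ⟨M, hM⟩ := q.bounded
        refine ⟨n + N + M, fun k b hk => ?_⟩
        simp [compX, show ¬k < n by omega, show k ≠ n by omega, hN k b (by omega),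
          hM k b (by omega)] }
  else p

theorem comp_x {n : ℕ} {p q : K.Cell} (h : face true n p = face false n q) (k : ℕ) (a : Bool) :
    (comp n p q).x k a = compX n p q k a := by
  rw [comp, dif_pos h]

theorem face_x (e : Bool) (n : ℕ) (p : K.Cell) (k : ℕ) (a : Bool) :
    (face e n p).x k a = if k < n then p.x k a else if k = n then p.x k e else 0 := rfl

theorem composable_iff {n : ℕ} {p q : K.Cell} :
    face true n p = face false n q ↔
      p.x n true = q.x n false ∧ ∀ k a, k < n → p.x k a = q.x k a := by
  refine ⟨fun h => ⟨?_, fun k a hk => ?_⟩, fun ⟨h1, h2⟩ => Cell.ext fun k a => ?_⟩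
  · simpa [face_x] using congrArg (fun r => r.x n true) h
  · simpa [face_x, hk] using congrArg (fun r => r.x k a) h
  · simp only [face_x]
    split_ifs with hk hk'
    · exact h2 k a hk
    · subst hk'; exact h1
    · rfl

theorem face_face (e e' : Bool) (i j : ℕ) (p : K.Cell) :
    face e i (face e' j p) = if i < j then face e i p else face e' j p := by
  split_ifs with h <;> ext k a : 1
  · simp only [face_x]
    rcases lt_trichotomy k i with hk | hk | hk
    · simp [hk, show k < j by omega]
    · subst hk; simp [h]
    · simp [show ¬k < i by omega, show k ≠ i by omega]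
  · simp only [face_x]
    rcases lt_trichotomy k i with hk | hk | hk
    · simp [hk]
    · subst hk
      rcases Nat.lt_or_eq_of_le (show j ≤ k by omega) with h' | rfl
      · simp [show ¬k < j by omega, show k ≠ j by omega]
      · simp
    · simp [show ¬k < i by omega, show k ≠ i by omega, show ¬k < j by omega, show k ≠ j by omega]

end Cell

/-- The omega-category of cells of `K`. -/
abbrev nu (K : ADC) : OmCat.{0} where
  carrier := K.Cell
  s := Cell.face false
  t := Cell.face true
  comp := Cell.comp
  ss i j x := by
    rw [Cell.face_face]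
    split_ifs with h
    · rw [min_eq_left h.le]
    · rw [min_eq_right (not_lt.mp h)]
  st i j x := Cell.face_face _ _ i j x
  ts i j x := Cell.face_face _ _ i j x
  tt i j x := by
    rw [Cell.face_face]
    split_ifs with h
    · rw [min_eq_left h.le]
    · rw [min_eq_right (not_lt.mp h)]
  s_comp i n x y h := by
    have hc := Cell.composable_iff.1 h
    split_ifs with hi
    · ext k a : 1
      simp only [Cell.face_x, Cell.comp_x h, Cell.compX]
      rcases lt_trichotomy k i with hk | hk | hk
      · simp [hk, show k < n by omega]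
      · subst hk
        rcases Nat.lt_or_eq_of_le hi with h' | rfl <;> simp [*]
      · simp [show ¬k < i by omega, show k ≠ i by omega]
    · have h' : Cell.face true n (Cell.face false i x) = Cell.face false n (Cell.face false i y) := by
        rw [Cell.face_face, Cell.face_face, if_pos (by omega), if_pos (by omega), h]
      ext k a : 1
      simp only [Cell.face_x, Cell.comp_x h, Cell.comp_x h', Cell.compX]
      rcases lt_trichotomy k i with hk | hk | hk
      · simp [hk]
      · subst hk; simp [show ¬k < n by omega, show k ≠ n by omega]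
      · simp [show ¬k < i by omega, show k ≠ i by omega, show ¬k < n by omega, show k ≠ n by omega]
  t_comp i n x y h := by
    have hc := Cell.composable_iff.1 h
    split_ifs with hi
    · ext k a : 1
      simp only [Cell.face_x, Cell.comp_x h, Cell.compX]
      rcases lt_trichotomy k i with hk | hk | hk
      · simp [hk, show k < n by omega, hc.2]
      · subst hk
        rcases Nat.lt_or_eq_of_le hi with h' | rfl
        · simp [h', hc.2]
        · simp
      · simp [show ¬k < i by omega, show k ≠ i by omega]
    · have h' : Cell.face true n (Cell.face true i x) = Cell.face false n (Cell.face true i y) := by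
        rw [Cell.face_face, Cell.face_face, if_pos (by omega), if_pos (by omega), h]
      ext k a : 1
      simp only [Cell.face_x, Cell.comp_x h, Cell.comp_x h', Cell.compX]
      rcases lt_trichotomy k i with hk | hk | hk
      · simp [hk]
      · subst hk; simp [show ¬k < n by omega, show k ≠ n by omega]
      · simp [show ¬k < i by omega, show k ≠ i by omega, show ¬k < n by omega, show k ≠ n by omega]
  id_comp n x := by
    have h : Cell.face true n (Cell.face false n x) = Cell.face false n x := by
      rw [Cell.face_face, if_neg (lt_irrefl n)]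
    ext k a : 1
    simp only [Cell.comp_x h, Cell.compX, Cell.face_x]
    rcases lt_trichotomy k n with hk | hk | hk
    · simp [hk]
    · subst hk; cases a <;> simp
    · simp [show ¬k < n by omega, show k ≠ n by omega]
  comp_id n x := by
    have h : Cell.face true n x = Cell.face false n (Cell.face true n x) := by
      rw [Cell.face_face, if_neg (lt_irrefl n)]
    ext k a : 1
    simp only [Cell.comp_x h, Cell.compX, Cell.face_x]
    rcases lt_trichotomy k n with hk | hk | hk
    · simp [hk]
    · subst hk; cases a <;> simp
    · simp [show ¬k < n by omega, show k ≠ n by omega]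
  assoc n x y z hxy hyz := by
    have a1 := Cell.composable_iff.1 hxy
    have a2 := Cell.composable_iff.1 hyz
    have h1 : Cell.face true n (Cell.comp n x y) = Cell.face false n z :=
      Cell.composable_iff.2 ⟨by simp [Cell.comp_x hxy, Cell.compX, a2.1],
        fun k a hk => by simp [Cell.comp_x hxy, Cell.compX, hk, a1.2, a2.2]⟩
    have h2 : Cell.face true n x = Cell.face false n (Cell.comp n y z) :=
      Cell.composable_iff.2 ⟨by simp [Cell.comp_x hyz, Cell.compX, a1.1],
        fun k a hk => by simp [Cell.comp_x hyz, Cell.compX, hk, a1.2]⟩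
    ext k a : 1
    simp only [Cell.comp_x h1, Cell.comp_x h2, Cell.compX, Cell.comp_x hxy, Cell.comp_x hyz]
    split_ifs <;> first | rfl | rw [add_assoc]
  interchange m n x x' y y' hmn hx hy hm := by
    have ax := Cell.composable_iff.1 hx
    have ay := Cell.composable_iff.1 hy
    have am := Cell.composable_iff.1 hm
    have hm' : Cell.face true m x' = Cell.face false m y' := Cell.composable_iff.2
      ⟨by rw [← ax.2 m true hmn, am.1, ay.2 m false hmn],
        fun k a hk => by rw [← ax.2 k a (by omega), am.2 k a hk, ay.2 k a (by omega)]⟩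
    have am' := Cell.composable_iff.1 hm'
    have h1 : Cell.face true m (Cell.comp n x x') = Cell.face false m (Cell.comp n y y') :=
      Cell.composable_iff.2 ⟨by simp [Cell.comp_x hx, Cell.comp_x hy, Cell.compX, hmn, am.1],
        fun k a hk => by
          simp [Cell.comp_x hx, Cell.comp_x hy, Cell.compX, show k < n by omega, am.2 k a hk]⟩
    have h2 : Cell.face true n (Cell.comp m x y) = Cell.face false n (Cell.comp m x' y') :=
      Cell.composable_iff.2 ⟨by
          simp [Cell.comp_x hm, Cell.comp_x hm', Cell.compX, show ¬n < m by omega,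
            show n ≠ m by omega, ax.1, ay.1],
        fun k a hk => by
          simp only [Cell.comp_x hm, Cell.comp_x hm', Cell.compX]
          rw [ax.2 k a hk, ay.2 k a hk]⟩
    ext k a : 1
    simp only [Cell.comp_x h1, Cell.comp_x h2, Cell.compX, Cell.comp_x hx, Cell.comp_x hy,
      Cell.comp_x hm, Cell.comp_x hm']
    rcases lt_trichotomy k n with hk | hk | hk
    · simp [hk]
    · subst hk
      cases a <;> simp [show ¬k < m by omega, show k ≠ m by omega]
    · simp [show ¬k < n by omega, show k ≠ n by omega, show ¬k < m by omega, show k ≠ m by omega]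
      abel
  bounded x := by
    obtain ⟨N, hN⟩ := x.bounded
    refine ⟨N + 1, Cell.ext fun k a => ?_⟩
    rw [Cell.face_x]
    split_ifs with h1 h2
    · rfl
    · rw [hN k false (by omega), hN k a (by omega)]
    · rw [hN k a (by omega)]

end ADC

/-! ### Orientals -/

/-- The complex of the `m`-simplex: nonempty sets of vertices, alternating boundary. -/
abbrev simplexADC (m : ℕ) : ADC where
  B := {s : Finset (Fin (m + 1)) // s.Nonempty}
  deg s := s.1.card - 1
  d s := ∑ a ∈ s.1, if h : (s.1.erase a).Nonempty then
      Finsupp.single ⟨s.1.erase a, h⟩ ((-1 : ℤ) ^ (s.1.filter (· < a)).card) else 0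

/-- The `m`-th oriental. -/
abbrev oriental (m : ℕ) : OmCat.{0} := (simplexADC m).nu

/-- The image of a basis element under a map of vertices, zero if it degenerates. -/
def imageBasis {a b : ℕ} (f : Fin (a + 1) →o Fin (b + 1)) (s : (simplexADC a).B) :
    (simplexADC b).B →₀ ℕ :=
  if (s.1.image f).card = s.1.card then Finsupp.single ⟨s.1.image f, s.2.image f⟩ 1 else 0

/-- The image of a chain under a map of vertices. -/
def imageChain {a b : ℕ} (f : Fin (a + 1) →o Fin (b + 1)) (c : (simplexADC a).B →₀ ℕ) :
    (simplexADC b).B →₀ ℕ :=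
  c.sum fun s r => r • imageBasis f s

section Functoriality

variable {a b c : ℕ}

theorem imageBasis_ne {f : Fin (a + 1) →o Fin (b + 1)} {s : (simplexADC a).B}
    {t : (simplexADC b).B} (h : imageBasis f s t ≠ 0) :
    (s.1.image f).card = s.1.card ∧ t.1 = s.1.image f := by
  unfold imageBasis at h
  split_ifs at h with h1
  · exact ⟨h1, congrArg Subtype.val (Finsupp.single_apply_ne_zero.1 h).1⟩
  · simp at h

theorem imageChain_add (f : Fin (a + 1) →o Fin (b + 1)) (x y : (simplexADC a).B →₀ ℕ) :
    imageChain f (x + y) = imageChain f x + imageChain f y :=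
  Finsupp.sum_add_index' (fun _ => zero_smul ℕ _) fun _ _ _ => add_smul _ _ _

theorem imageChain_single (f : Fin (a + 1) →o Fin (b + 1)) (s : (simplexADC a).B) (r : ℕ) :
    imageChain f (Finsupp.single s r) = r • imageBasis f s :=
  Finsupp.sum_single_index (zero_smul ℕ _)

theorem imageChain_zero (f : Fin (a + 1) →o Fin (b + 1)) : imageChain f 0 = 0 :=
  Finsupp.sum_zero_index

/-- The image of an integral chain. -/
def imageZ (f : Fin (a + 1) →o Fin (b + 1)) : ((simplexADC a).B →₀ ℤ) →+ ((simplexADC b).B →₀ ℤ) :=
  Finsupp.liftAddHom fun s => (smulAddHom ℤ _).flip ((simplexADC b).toZ (imageBasis f s))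

theorem imageZ_single (f : Fin (a + 1) →o Fin (b + 1)) (s : (simplexADC a).B) (r : ℤ) :
    imageZ f (Finsupp.single s r) = r • (simplexADC b).toZ (imageBasis f s) := by
  simp [imageZ]

theorem imageZ_toZ (f : Fin (a + 1) →o Fin (b + 1)) (x : (simplexADC a).B →₀ ℕ) :
    imageZ f ((simplexADC a).toZ x) = (simplexADC b).toZ (imageChain f x) := by
  induction x using Finsupp.induction_linear with
  | zero => simp [ADC.toZ, imageChain_zero]
  | add x y hx hy =>
    rw [imageChain_add, ADC.toZ_add, ADC.toZ_add, map_add, hx, hy]
  | single s r =>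
    rw [imageChain_single, ADC.toZ, Finsupp.mapRange_single, imageZ_single]
    ext t
    simp [ADC.toZ]

open Classical in
theorem bd_imageBasis (f : Fin (a + 1) →o Fin (b + 1)) (s : (simplexADC a).B) :
    (simplexADC b).bd (imageBasis f s) = imageZ f ((simplexADC a).d s) := by
  obtain ⟨s, hs⟩ := s
  have key : ∀ x ∈ s, imageZ f (if h : (s.erase x).Nonempty then
      Finsupp.single (⟨s.erase x, h⟩ : (simplexADC a).B) ((-1 : ℤ) ^ (s.filter (· < x)).card)
      else 0) = if h : (s.erase x).Nonempty ∧ ((s.erase x).image f).card = (s.erase x).card then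
        Finsupp.single (⟨(s.erase x).image f, h.1.image f⟩ : (simplexADC b).B)
          ((-1 : ℤ) ^ (s.filter (· < x)).card) else 0 := by
    intro x _
    by_cases h1 : (s.erase x).Nonempty
    · rw [dif_pos h1, imageZ_single]
      unfold imageBasis
      by_cases h2 : ((s.erase x).image f).card = (s.erase x).card
      · rw [if_pos h2, dif_pos ⟨h1, h2⟩, ADC.toZ, Finsupp.mapRange_single, Finsupp.smul_single]
        simp
      · rw [if_neg h2, dif_neg (fun h => h2 h.2)]
        simp [ADC.toZ]
    · rw [dif_neg h1, dif_neg (fun h => h1 h.1)]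
      exact map_zero (imageZ f)
  change _ = imageZ f (∑ x ∈ s, if h : (s.erase x).Nonempty then
      Finsupp.single (⟨s.erase x, h⟩ : (simplexADC a).B) ((-1 : ℤ) ^ (s.filter (· < x)).card) else 0)
  rw [map_sum, Finset.sum_congr rfl key]
  by_cases hinj : (s.image f).card = s.card
  · have hio : Set.InjOn f s := Finset.card_image_iff.1 hinj
    unfold imageBasis
    rw [if_pos hinj, ADC.bd_single, one_smul]
    change (∑ y ∈ s.image f, if h : ((s.image f).erase y).Nonempty then _ else 0) = _
    rw [Finset.sum_image hio]
    refine Finset.sum_congr rfl fun x hx => ?_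
    have he : (s.erase x).image f = (s.image f).erase (f x) := by
      ext y
      simp only [Finset.mem_image, Finset.mem_erase]
      exact ⟨fun ⟨z, ⟨hzx, hz⟩, e⟩ => ⟨fun h => hzx (hio hz hx (e.trans h)), z, hz, e⟩,
        fun ⟨hy, z, hz, e⟩ => ⟨z, ⟨fun h => hy (by rw [← e, h]), hz⟩, e⟩⟩
    have hc : ((s.erase x).image f).card = (s.erase x).card :=
      Finset.card_image_iff.2 (hio.mono (by simp))
    have hr : ((s.image f).filter (· < f x)).card = (s.filter (· < x)).card := by
      rw [Finset.filter_image, Finset.card_image_iff.2 (hio.mono (Finset.coe_subset.2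
        (Finset.filter_subset _ _)))]
      refine congrArg _ (Finset.filter_congr fun z hz => ⟨fun h => ?_, fun h => ?_⟩)
      · by_contra h'
        exact absurd (f.mono (not_lt.1 h')) (not_le.2 h)
      · exact lt_of_le_of_ne (f.mono h.le) fun e => h.ne (hio hz hx e)
    by_cases h1 : (s.erase x).Nonempty
    · rw [dif_pos (he ▸ h1.image f), dif_pos ⟨h1, hc⟩, hr]
      congr 1
      exact Subtype.ext he.symm
    · rw [dif_neg (by rw [← he]; simpa using h1), dif_neg (fun h => h1 h.1)]
  · unfold imageBasis
    rw [if_neg hinj, ADC.bd_zero]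
    symm
    by_cases hd : ∃ x ∈ s, ((s.erase x).image f).card = (s.erase x).card
    swap
    · exact Finset.sum_eq_zero fun x hx => dif_neg fun h => hd ⟨x, hx, h.2⟩
    obtain ⟨x₀, hx₀, hcard⟩ := hd
    have hio0 : Set.InjOn f (s.erase x₀) := Finset.card_image_iff.1 hcard
    obtain ⟨x₁, hx₁, hne, heq⟩ : ∃ x₁ ∈ s, x₁ ≠ x₀ ∧ f x₁ = f x₀ := by
      by_contra hno
      push Not at hno
      refine hinj (Finset.card_image_iff.2 fun p hp q hq e => ?_)
      by_contra hpq
      by_cases hp0 : p = x₀
      · subst hp0; exact hno q hq (Ne.symm hpq) e.symm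
      by_cases hq0 : q = x₀
      · subst hq0; exact hno p hp hpq e
      exact hpq (hio0 (by simp [hp0, Finset.mem_coe.1 hp]) (by simp [hq0, Finset.mem_coe.1 hq]) e)
    have huniq : ∀ p ∈ s, p ≠ x₀ → f p = f x₀ → p = x₁ := fun p hp hp0 e =>
      hio0 (by simp [hp0, hp]) (by simp [hne, hx₁]) (e.trans heq.symm)
    rw [← Finset.sum_subset (s₁ := {x₀, x₁}) (by simp [Finset.insert_subset_iff, hx₀, hx₁])]
    swap
    · intro x hx hx'
      simp only [Finset.mem_insert, Finset.mem_singleton, not_or] at hx'
      exact dif_neg fun h => hx'.1 (by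
        by_contra hxx
        exact hne.symm ((Finset.card_image_iff.1 h.2) (by simp [Ne.symm hx'.1, hx₀])
          (by simp [Ne.symm hx'.2, hx₁]) heq.symm))
    rw [Finset.sum_pair hne.symm]
    have hn0 : (s.erase x₀).Nonempty := ⟨x₁, by simp [hne, hx₁]⟩
    have hn1 : (s.erase x₁).Nonempty := ⟨x₀, by simp [hne.symm, hx₀]⟩
    have hi : (s.erase x₁).image f = (s.erase x₀).image f := by
      ext y
      simp only [Finset.mem_image, Finset.mem_erase]
      constructor
      · rintro ⟨z, ⟨hz1, hz⟩, rfl⟩
        by_cases hz0 : z = x₀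
        · exact ⟨x₁, ⟨hne, hx₁⟩, by rw [heq, hz0]⟩
        · exact ⟨z, ⟨hz0, hz⟩, rfl⟩
      · rintro ⟨z, ⟨hz0, hz⟩, rfl⟩
        by_cases hz1 : z = x₁
        · exact ⟨x₀, ⟨hne.symm, hx₀⟩, by rw [hz1, heq]⟩
        · exact ⟨z, ⟨hz1, hz⟩, rfl⟩
    have hcd : ((s.erase x₁).image f).card = (s.erase x₁).card := by
      rw [hi, hcard, Finset.card_erase_of_mem hx₀, Finset.card_erase_of_mem hx₁]
    rw [dif_pos ⟨hn0, hcard⟩, dif_pos ⟨hn1, hcd⟩]
    have hP : (⟨(s.erase x₁).image f, hn1.image f⟩ : (simplexADC b).B) =
        ⟨(s.erase x₀).image f, hn0.image f⟩ := Subtype.ext hi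
    rw [hP, ← Finsupp.single_add]
    have hsign : ∀ p q : Fin (a + 1), p ∈ s → q ∈ s → p < q →
        (∀ z ∈ s, z < q → p < z → False) →
        (s.filter (· < q)).card = (s.filter (· < p)).card + 1 := by
      intro p q hp hq hpq hbet
      have : s.filter (· < q) = insert p (s.filter (· < p)) := by
        ext z
        simp only [Finset.mem_filter, Finset.mem_insert]
        constructor
        · rintro ⟨hz, hzq⟩
          rcases lt_trichotomy z p with h | h | h
          · exact Or.inr ⟨hz, h⟩
          · exact Or.inl h
          · exact (hbet z hz hzq h).elim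
        · rintro (rfl | ⟨hz, h⟩)
          · exact ⟨hp, hpq⟩
          · exact ⟨hz, h.trans hpq⟩
      rw [this, Finset.card_insert_of_notMem (by simp)]
    have hbet : ∀ z ∈ s, z ≠ x₀ → z ≠ x₁ → min x₀ x₁ < z → z < max x₀ x₁ → False := by
      intro z hz h0 h1 hl hu
      refine h1 (huniq z hz h0 ?_)
      have e1 := f.mono hl.le
      have e2 := f.mono hu.le
      rcases le_total x₀ x₁ with h | h <;> simp [h, heq] at e1 e2 <;> exact le_antisymm e2 e1
    suffices h : (-1 : ℤ) ^ (s.filter (· < x₀)).card + (-1) ^ (s.filter (· < x₁)).card = 0 by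
      rw [h, Finsupp.single_zero]
    rcases lt_or_gt_of_ne hne with h | h
    · rw [hsign x₁ x₀ hx₁ hx₀ h fun z hz hl hu =>
        hbet z hz hl.ne hu.ne' (by simpa [h.le] using hu) (by simpa [h.le] using hl), pow_succ]
      ring
    · rw [hsign x₀ x₁ hx₀ hx₁ h fun z hz hl hu =>
        hbet z hz hu.ne' hl.ne (by simpa [h.le] using hu) (by simpa [h.le] using hl), pow_succ]
      ring

theorem imageChain_deg (f : Fin (a + 1) →o Fin (b + 1)) (x : (simplexADC a).B →₀ ℕ) {k : ℕ}
    (h : ∀ s, x s ≠ 0 → (simplexADC a).deg s = k) (t : (simplexADC b).B)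
    (ht : imageChain f x t ≠ 0) : (simplexADC b).deg t = k := by
  by_contra hk
  refine ht ?_
  rw [imageChain, Finsupp.sum_apply]
  refine Finset.sum_eq_zero fun s hs => ?_
  by_contra hne
  have h1 : imageBasis f s t ≠ 0 := fun e => hne (by simp [e])
  obtain ⟨hc, he⟩ := imageBasis_ne h1
  refine hk ?_
  rw [← h s (Finsupp.mem_support_iff.1 hs)]
  change t.1.card - 1 = s.1.card - 1
  rw [he, hc]

theorem imageChain_bd (f : Fin (a + 1) →o Fin (b + 1)) (x : (simplexADC a).B →₀ ℕ) :
    (simplexADC b).bd (imageChain f x) = imageZ f ((simplexADC a).bd x) := by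
  induction x using Finsupp.induction_linear with
  | zero => simp [imageChain_zero, ADC.bd_zero]
  | add x y hx hy => rw [imageChain_add, ADC.bd_add, ADC.bd_add, map_add, hx, hy]
  | single s r =>
    rw [imageChain_single, ADC.bd_single, map_nsmul, ← bd_imageBasis]
    induction r with
    | zero => simp [ADC.bd_zero]
    | succ r ih => rw [succ_nsmul, succ_nsmul, ADC.bd_add, ih]

theorem imageChain_aug (f : Fin (a + 1) →o Fin (b + 1)) (x : (simplexADC a).B →₀ ℕ)
    (h : ∀ s, x s ≠ 0 → (simplexADC a).deg s = 0) :
    (imageChain f x).sum (fun _ r => r) = x.sum (fun _ r => r) := by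
  rw [imageChain, Finsupp.sum_sum_index (fun _ => rfl) fun _ _ _ => rfl]
  refine Finsupp.sum_congr fun s hs => ?_
  have hc : s.1.card = 1 := by
    have h1 : s.1.card - 1 = 0 := h s (Finsupp.mem_support_iff.1 hs)
    have := Finset.card_pos.2 s.2
    omega
  have : (s.1.image f).card = s.1.card := by
    obtain ⟨v, hv⟩ := Finset.card_eq_one.1 hc
    simp [hv]
  rw [imageBasis, if_pos this, Finsupp.smul_single, smul_eq_mul, mul_one]
  exact Finsupp.sum_single_index rfl

/-- The functor of orientals induced by a map of vertices. -/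
def orientalMap (f : Fin (a + 1) →o Fin (b + 1)) : Fun (oriental a) (oriental b) where
  toFun p :=
    { x := fun k e => imageChain f (p.x k e)
      deg_eq := fun k e t ht => imageChain_deg f _ (p.deg_eq k e) t ht
      aug := fun e => by rw [imageChain_aug f _ (p.deg_eq 0 e)]; exact p.aug e
      boundary := fun k e => by
        rw [imageChain_bd, p.boundary, map_sub, imageZ_toZ, imageZ_toZ]
      bounded := p.bounded.imp fun N hN k e hk => by rw [hN k e hk, imageChain_zero] }
  map_s n p := by
    refine ADC.Cell.ext fun k e => ?_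
    change imageChain f ((ADC.Cell.face false n p).x k e) = _
    simp only [ADC.Cell.face_x]
    split_ifs <;> first | rfl | exact imageChain_zero f
  map_t n p := by
    refine ADC.Cell.ext fun k e => ?_
    change imageChain f ((ADC.Cell.face true n p).x k e) = _
    simp only [ADC.Cell.face_x]
    split_ifs <;> first | rfl | exact imageChain_zero f
  map_comp n p q h := by
    refine ADC.Cell.ext fun k e => ?_
    change imageChain f ((ADC.Cell.comp n p q).x k e) = _
    erw [ADC.Cell.comp_x h, ADC.Cell.comp_x]
    · unfold ADC.Cell.compX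
      split_ifs <;> first | rfl | exact imageChain_add f _ _
    · refine ADC.Cell.composable_iff.2 ⟨?_, fun j d hj => ?_⟩
      · exact congrArg (imageChain f) (ADC.Cell.composable_iff.1 h).1
      · exact congrArg (imageChain f) ((ADC.Cell.composable_iff.1 h).2 j d hj)

theorem imageBasis_id (s : (simplexADC a).B) : imageBasis OrderHom.id s = Finsupp.single s 1 := by
  simp [imageBasis]

theorem imageChain_id (x : (simplexADC a).B →₀ ℕ) : imageChain OrderHom.id x = x := by
  conv_rhs => rw [← x.sum_single]
  refine Finsupp.sum_congr fun s _ => ?_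
  rw [imageBasis_id, Finsupp.smul_single, smul_eq_mul, mul_one]

theorem imageChain_imageBasis (f : Fin (a + 1) →o Fin (b + 1)) (g : Fin (b + 1) →o Fin (c + 1))
    (s : (simplexADC a).B) : imageChain g (imageBasis f s) = imageBasis (g.comp f) s := by
  obtain ⟨s, hs⟩ := s
  have e : (s.image f).image g = s.image (g.comp f) := by rw [Finset.image_image]; rfl
  unfold imageBasis
  split_ifs with h1 h2 h2
  · rw [imageChain_single, one_smul, imageBasis, if_pos (by rw [e, h2, h1])]
    exact congrArg (Finsupp.single · 1) (Subtype.ext e)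
  · rw [imageChain_single, one_smul, imageBasis, if_neg (by rw [e, h1]; exact h2)]
  · exfalso
    have l1 : (s.image (g.comp f)).card ≤ (s.image f).card := e ▸ Finset.card_image_le
    have l2 : (s.image f).card ≤ s.card := Finset.card_image_le
    exact h1 (le_antisymm l2 (h2 ▸ l1))
  · exact imageChain_zero g

theorem imageChain_comp (f : Fin (a + 1) →o Fin (b + 1)) (g : Fin (b + 1) →o Fin (c + 1))
    (x : (simplexADC a).B →₀ ℕ) : imageChain g (imageChain f x) = imageChain (g.comp f) x := by
  induction x using Finsupp.induction_linear with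
  | zero => simp [imageChain_zero]
  | add x y hx hy => rw [imageChain_add, imageChain_add, imageChain_add, hx, hy]
  | single s r =>
    rw [imageChain_single, imageChain_single, ← imageChain_imageBasis]
    induction r with
    | zero => simp [imageChain_zero]
    | succ r ih => rw [succ_nsmul, succ_nsmul, imageChain_add, ih]

theorem orientalMap_id : orientalMap (OrderHom.id : Fin (a + 1) →o Fin (a + 1)) = Fun.id _ :=
  Fun.ext fun p => ADC.Cell.ext fun k e => imageChain_id (p.x k e)

theorem orientalMap_comp (f : Fin (a + 1) →o Fin (b + 1)) (g : Fin (b + 1) →o Fin (c + 1)) :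
    orientalMap (g.comp f) = (orientalMap f).comp (orientalMap g) :=
  Fun.ext fun p => ADC.Cell.ext fun k e => (imageChain_comp f g (p.x k e)).symm

end Functoriality

/-! ### The nerve and the three classes -/

/-- The Street nerve of one omega-category. -/
def nerveObj (X : OmCat.{u}) : SSet.{u} where
  obj m := Fun (oriental m.unop.len) X
  map θ := TypeCat.ofHom fun σ => (orientalMap θ.unop.toOrderHom).comp σ
  map_id m := by
    refine ConcreteCategory.hom_ext _ _ fun σ => ?_
    show (orientalMap (OrderHom.id : Fin (m.unop.len + 1) →o _)).comp σ = σ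
    rw [orientalMap_id]
    rfl
  map_comp θ φ := by
    refine ConcreteCategory.hom_ext _ _ fun σ => ?_
    show (orientalMap (θ.unop.toOrderHom.comp φ.unop.toOrderHom)).comp σ = _
    rw [orientalMap_comp]
    rfl

/-- The map of nerves of a functor. -/
def nerveHom {X Y : OmCat.{u}} (F : X ⟶ Y) : nerveObj X ⟶ nerveObj Y where
  app m := TypeCat.ofHom fun σ => Fun.comp σ F
  naturality _ _ _ := rfl

theorem nerveHom_id (X : OmCat.{u}) : nerveHom (𝟙 X) = 𝟙 (nerveObj X) := rfl

theorem nerveHom_comp {X Y Z : OmCat.{u}} (F : X ⟶ Y) (G : Y ⟶ Z) :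
    nerveHom (F ≫ G) = nerveHom F ≫ nerveHom G := rfl

/-- The Street nerve. -/
def streetNerve : OmCat.{u} ⥤ SSet.{u} where
  obj := nerveObj
  map := nerveHom
  map_id := nerveHom_id
  map_comp := nerveHom_comp

/-- The Street nerve of strict `n`-categories. -/
def nerveN (n : ℕ∞) : NCat.{u} n ⥤ SSet.{u} := (IsNCat.{u} n).ι ⋙ streetNerve

/-- Homotopy classes of maps to `K` correspond bijectively, for every Kan complex `K`. -/
def IsWeakHomotopyEquiv {X Y : SSet.{u}} (f : X ⟶ Y) : Prop :=
  ∀ K : SSet.{u}, SSet.KanComplex K →
    (∀ a : X ⟶ K, ∃ b : Y ⟶ K,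
      Relation.EqvGen (fun p q : X ⟶ K => Nonempty (SSet.Homotopy p q)) (f ≫ b) a) ∧
    ∀ b b' : Y ⟶ K,
      Relation.EqvGen (fun p q : X ⟶ K => Nonempty (SSet.Homotopy p q)) (f ≫ b) (f ≫ b') →
      Relation.EqvGen (fun p q : Y ⟶ K => Nonempty (SSet.Homotopy p q)) b b'

/-- The class `W_n`. -/
def W (n : ℕ∞) : MorphismProperty (NCat.{u} n) := fun _ _ f =>
  IsWeakHomotopyEquiv ((nerveN n).map f)

/-- The class `F_n`. -/
def F (n : ℕ∞) : MorphismProperty (NCat.{u} n) :=
  MorphismProperty.inverseImage SSet.modelCategoryQuillen.J.rlp (nerveN n ⋙ SSet.ex ⋙ SSet.ex)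

/-- The class `C_n`. -/
def C (n : ℕ∞) : MorphismProperty (NCat.{u} n) := (F n ⊓ W n).llp

/-- The Ara-Maltsiniotis conjecture at `n`: the three classes form a model structure and
`c_n Sd² ⊣ Ex² N_n` is a Quillen equivalence with simplicial sets. -/
def Conjecture (n : ℕ∞) : Prop :=
  (∃ M : ModelCategory (NCat.{u} n),
      M.categoryWithWeakEquivalences.weakEquivalences = W n ∧
      M.categoryWithFibrations.fibrations = F n ∧
      M.categoryWithCofibrations.cofibrations = C n) ∧
  ∃ (c : SSet.{u} ⥤ NCat.{u} n) (adj : c ⊣ nerveN n),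
    MorphismProperty.monomorphisms SSet.{u} ≤ (C n).inverseImage ((SSet.sd ⋙ SSet.sd) ⋙ c) ∧
    (∀ ⦃K L : SSet.{u}⦄ (i : K ⟶ L), Mono i → IsWeakHomotopyEquiv i →
      IsWeakHomotopyEquiv ((nerveN n).map (c.map (SSet.sd.map (SSet.sd.map i))))) ∧
    ∀ (K : SSet.{u}) (X : NCat.{u} n), SSet.KanComplex (SSet.ex.obj (SSet.ex.obj ((nerveN n).obj X))) →
      ∀ f : c.obj (SSet.sd.obj (SSet.sd.obj K)) ⟶ X,
        IsWeakHomotopyEquiv ((nerveN n).map f) ↔ IsWeakHomotopyEquiv
          (((SSet.sdExAdjunction.comp SSet.sdExAdjunction).comp adj).homEquiv K X f)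

end

end Vale.Agent.P213
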